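import Vale.Agent.P011Z.Cell.Fil

/-!
The big cell: the algebraic part.
-/

open Matrix

namespace Vale.Agent.P011Z

namespace CL

variable {n : Type} [Fintype n] [DecidableEq n] {S : Sys n} {F : Type} [Field F] {I : Type}
  [Fintype I] {e : I → Matrix n n F} {k : I → ℤ}

omit [DecidableEq n] in
/-- The translates of a polynomial function span a space of finite dimension. -/
theorem exists_fg (f : MvPolynomial (n × n) F) :
    ∃ V : Submodule F (Matrix n n F → F), V.FG ∧ ∀ y : Matrix n n F,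
      (fun x => MvPolynomial.eval (fun ij => (y * x) ij.1 ij.2) f) ∈ V := by
  induction f using MvPolynomial.induction_on with
  | C a =>
    exact ⟨Submodule.span F {fun _ => a}, Submodule.fg_span_singleton _, fun y => by
      simp only [MvPolynomial.eval_C]
      exact Submodule.mem_span_singleton_self _⟩
  | add p q hp hq =>
    obtain ⟨V, h1, h2⟩ := hp
    obtain ⟨W, h3, h4⟩ := hq
    refine ⟨V ⊔ W, h1.sup h3, fun y => ?_⟩
    simp only [map_add]
    exact Submodule.add_mem_sup (h2 y) (h4 y)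
  | mul_X p ij hp =>
    obtain ⟨V, h1, h2⟩ := hp
    refine ⟨V * Submodule.span F (Set.range fun l (x : Matrix n n F) => x l ij.2),
      h1.mul (Submodule.fg_span (Set.finite_range _)), fun y => ?_⟩
    simp only [map_mul, MvPolynomial.eval_X]
    refine Submodule.mul_mem_mul (h2 y) ((Submodule.mem_span_range_iff_exists_fun F).2
      ⟨fun l => y ij.1 l, funext fun x => ?_⟩)
    simp [mul_apply]

theorem ev_expand (he : IsDec e) {a : ℕ} (m : MultilinearMap F (fun _ : Fin a => n → F) F)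
    (x : Fin a → n → F) : m x = ∑ c : Fin a → I, m fun r => e (c r) *ᵥ x r := by
  simpa only [one_smul, he.sum, one_mulVec, Finset.prod_const_one, one_mul] using
    ml_expand m e (fun _ _ => 1) x

theorem mem_mon_of_blk (he : IsDec e) {g : Matrix n n F}
    (h : ∀ τ ∈ S.T, ∀ (c : Fin τ.1 → I) (x : Fin τ.1 → n → F),
      ev τ.2 F (fun r => (g * e (c r)) *ᵥ x r) = ev τ.2 F fun r => e (c r) *ᵥ x r) :
    g ∈ S.mon F := by
  intro τ hτ x
  rw [ev_expand he _ x]
  refine (ev_expand he ((ev τ.2 F).compLinearMap fun _ => g.mulVecLin) x).trans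
    (Finset.sum_congr rfl fun c _ => ?_)
  rw [← h τ hτ c x]
  simp only [MultilinearMap.compLinearMap_apply, mulVecLin_apply, mulVec_mulVec]

variable [CharZero F]

theorem ev_zero (h : S.Gr e k) {τ : Tn n} (hτ : τ ∈ S.T) {c : Fin τ.1 → I}
    (hc : ∑ r, k (c r) ≠ 0) (x : Fin τ.1 → n → F) : ev τ.2 F (fun r => e (c r) *ᵥ x r) = 0 := by
  by_contra h0
  have h1 := h.dec.sum_eq_zero h.mem ⟨τ.2, hτ, x, h0⟩
  exact hc (by exact_mod_cast h1)

theorem ev_tri (h : S.Gr e k) {X : Matrix n n F} (hX : X ∈ fil e k 0) {τ : Tn n} (hτ : τ ∈ S.T)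
    {c : Fin τ.1 → I} (hc : 0 ≤ ∑ r, k (c r)) (x : Fin τ.1 → n → F) :
    ev τ.2 F (fun r => (X * e (c r)) *ᵥ x r) =
      ev τ.2 F fun r => e (c r) *ᵥ ((X * e (c r)) *ᵥ x r) := by
  classical
  rw [ev_expand h.dec, Finset.sum_eq_single c _ (by simp)]
  intro c' _ hne
  by_cases h1 : ∃ r, k (c' r) < k (c r)
  · obtain ⟨r, hr⟩ := h1
    refine MultilinearMap.map_coord_zero _ r ?_
    rw [mulVec_mulVec, ← mul_assoc, hX _ _ (by simpa using hr), zero_mulVec]
  · push Not at h1
    obtain ⟨r, hr⟩ := Function.ne_iff.1 hne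
    have h2 : ∑ r, k (c r) < ∑ r, k (c' r) := Finset.sum_lt_sum (fun r _ => h1 r)
      ⟨r, Finset.mem_univ r, lt_of_le_of_ne (h1 r) fun h3 => hr (h.inj h3).symm⟩
    exact ev_zero h hτ (by omega) _

omit [CharZero F] in
theorem gr_neg (h : S.Gr e k) : S.Gr e (-k) :=
  ⟨h.dec, neg_injective.comp h.inj, by simpa using neg_mem h.mem⟩

theorem mem_mon_of_elim (h : S.Gr e k) {g v : Matrix n n F} (hg : g ∈ S.mon F)
    (hv : v - 1 ∈ fil e k 1) (hb : g * v ∈ fil e (-k) 0) : v ∈ S.mon F := by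
  refine mem_mon_of_blk h.dec fun τ hτ c x => ?_
  rcases le_or_gt 0 (∑ r, k (c r)) with hc | hc
  · rw [ev_tri h (mem_fil_of_sub_one h.dec hv) hτ hc]
    simp only [mulVec_mulVec, ← mul_assoc, blk_of_sub_one h.dec hv]
  · have h1 := ev_tri (gr_neg h) hb hτ (c := c) (by simpa using hc.le) x
    rw [ev_zero h hτ hc.ne] at h1
    rw [ev_zero h hτ hc.ne, ← hg τ hτ, ← h1]
    simp only [mulVec_mulVec, mul_assoc]

open Classical in
theorem diag_mem (h : S.Gr e k) {b : Matrix n n F} (hb : b ∈ S.mon F) (hb' : b ∈ fil e k 0) :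
    ∑ i, e i * b * e i ∈ S.mon F := by
  refine mem_mon_of_blk h.dec fun τ hτ c x => ?_
  have h1 : ∀ j, (∑ i, e i * b * e i) * e j = e j * (b * e j) := by
    intro j
    rw [Finset.sum_mul, Finset.sum_eq_single j (fun l _ hl => by
      rw [mul_assoc, h.dec.orth _ _ hl, mul_zero]) (by simp), mul_assoc, h.dec.idem, mul_assoc]
  simp only [h1, ← mulVec_mulVec _ (e _)]
  by_cases hc : ∑ r, k (c r) = 0
  · rw [← ev_tri h hb' hτ hc.ge, ← hb τ hτ fun r => e (c r) *ᵥ x r]
    simp only [mulVec_mulVec]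
  · rw [ev_zero h hτ hc, ev_zero h hτ hc]

omit [CharZero F] in
theorem diag_blk (he : IsDec e) (b : Matrix n n F) (i j : I) [Decidable (i = j)] :
    e i * (∑ l, e l * b * e l) * e j = if i = j then e i * b * e j else 0 := by
  rw [Finset.mul_sum, Finset.sum_mul, Finset.sum_eq_single i (fun l _ hl => by
    rw [← mul_assoc, ← mul_assoc, he.orth _ _ hl.symm, zero_mul, zero_mul, zero_mul]) (by simp),
    ← mul_assoc, ← mul_assoc, he.idem, mul_assoc _ (e i)]
  split_ifs with h
  · rw [← h, he.idem]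
  · rw [he.orth _ _ h, mul_zero]

omit [Fintype I] [CharZero F] in
theorem mem_Up {g : S.mon F} : g ∈ S.Up e k ↔ (g : Matrix n n F) - 1 ∈ fil e k 1 :=
  mem_fil_one.symm

omit [CharZero F] in
theorem zpow_sum' {w : F} (hw : w ≠ 0) {ι : Type} (s : Finset ι) (c : ι → ℤ) :
    ∏ r ∈ s, w ^ c r = w ^ ∑ r ∈ s, c r := by
  classical
  induction s using Finset.induction_on with
  | empty => simp
  | insert a s ha ih => rw [Finset.prod_insert ha, Finset.sum_insert ha, zpow_add₀ hw, ih]

theorem cmp_mem (he : IsDec e) {c : I → ℤ} (hc : ∑ i, (c i : F) • e i ∈ S.lie F)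
    {X : Matrix n n F} (hX : X ∈ S.lie F) (φ : ℤ → F) :
    cmp e (fun i j => φ (c i - c j)) X ∈ S.lie F := by
  classical
  have h1 : ∀ P : Polynomial F,
      cmp e (fun i j => P.eval ((c i - c j : ℤ) : F)) X ∈ S.lie F := by
    intro P
    induction P using Polynomial.induction_on with
    | C a =>
      have e1 : cmp e (fun i j => (Polynomial.C a).eval ((c i - c j : ℤ) : F)) X = a • X :=
        ext he fun i j => by rw [cmp_blk he, Polynomial.eval_C, mul_smul_comm, smul_mul_assoc]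
      rw [e1]
      exact Submodule.smul_mem _ a hX
    | add p q hp hq =>
      simp only [cmp, Polynomial.eval_add, add_smul, Finset.sum_add_distrib]
      exact add_mem hp hq
    | monomial m a ih =>
      have e1 : cmp e (fun i j => (Polynomial.C a * Polynomial.X ^ (m + 1)).eval
          ((c i - c j : ℤ) : F)) X = (∑ i, (c i : F) • e i) *
            cmp e (fun i j => (Polynomial.C a * Polynomial.X ^ m).eval ((c i - c j : ℤ) : F)) X -
            cmp e (fun i j => (Polynomial.C a * Polynomial.X ^ m).eval ((c i - c j : ℤ) : F)) X *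
              ∑ i, (c i : F) • e i := by
        refine ext he fun i j => ?_
        rw [mul_sub, sub_mul, ← mul_assoc, mul_sum he, smul_mul_assoc, smul_mul_assoc,
          ← mul_assoc, mul_assoc _ (∑ i, (c i : F) • e i) (e j), he.sum_mul, mul_smul_comm,
          cmp_blk he, cmp_blk he,
          smul_smul, smul_smul, ← sub_smul]
        congr 1
        simp only [Polynomial.eval_mul, Polynomial.eval_C, Polynomial.eval_pow, Polynomial.eval_X,
          Int.cast_sub]
        ring
      rw [e1]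
      exact Sys.bracket_mem hc ih
  have h2 := h1 (Lagrange.interpolate (Finset.univ.image fun p : I × I => c p.1 - c p.2)
    ((↑) : ℤ → F) φ)
  have h3 : ∀ i j, (Lagrange.interpolate (Finset.univ.image fun p : I × I => c p.1 - c p.2)
      ((↑) : ℤ → F) φ).eval ((c i - c j : ℤ) : F) = φ (c i - c j) := fun i j =>
    Lagrange.eval_interpolate_at_node φ Int.cast_injective.injOn
      (Finset.mem_image_of_mem _ (Finset.mem_univ (i, j)))
  simpa only [h3] using h2

end CL

namespace Sys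

open CL

variable {n : Type} [Fintype n] [DecidableEq n] {S : Sys n} {I : Type} [Fintype I]

section alg

variable {F : Type} [Field F] [CharZero F] {e : I → Matrix n n F} {k : I → ℤ}

/-- A subgroup which contains a nonempty Zariski open set has finite index. -/
theorem finiteIndex_of_poly (P : Subgroup (S.mon F)) (f : MvPolynomial (n × n) F)
    (h1 : MvPolynomial.eval (fun ij => (1 : Matrix n n F) ij.1 ij.2) f ≠ 0)
    (h : ∀ g : S.mon F, MvPolynomial.eval (fun ij => (g : Matrix n n F) ij.1 ij.2) f ≠ 0 → g ∈ P) :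
    P.FiniteIndex := by
  obtain ⟨V, hV, hf⟩ := exists_fg f
  have : Module.Finite F V := Module.Finite.iff_fg.2 hV
  have h2 : LinearIndependent F fun q : S.mon F ⧸ P =>
      (⟨_, hf ((q.out⁻¹ : S.mon F) : Matrix n n F)⟩ : V) := by
    refine LinearIndependent.of_pairwise_dual_eq_zero_one _ (fun q =>
      (MvPolynomial.eval (fun ij => (1 : Matrix n n F) ij.1 ij.2) f)⁻¹ •
        (LinearMap.proj (q.out : Matrix n n F) ∘ₗ V.subtype)) (fun q q' hq => ?_) fun q => ?_
    · by_contra h0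
      have h3 : q'.out⁻¹ * q.out ∈ P := h _ fun h4 => h0 (by
        simp only [LinearMap.smul_apply, LinearMap.comp_apply, Submodule.subtype_apply,
          LinearMap.proj_apply]
        exact smul_eq_zero_of_right _ h4)
      have h4 := QuotientGroup.eq.2 h3
      rw [QuotientGroup.out_eq', QuotientGroup.out_eq'] at h4
      exact hq h4.symm
    · simp only [LinearMap.smul_apply, LinearMap.comp_apply, Submodule.subtype_apply,
        LinearMap.proj_apply, coe_inv_mul, smul_eq_mul]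
      exact inv_mul_cancel₀ h1
  have := h2.finite_of_isNoetherian
  exact Subgroup.finiteIndex_of_finite_quotient

theorem Gr.neg (h : S.Gr e k) : S.Gr e (-k) := gr_neg h

theorem Gr.exists_ldu (h : S.Gr e k) (g : S.mon F)
    (hg : ∀ i, dl (upE e k (k i)) (g : Matrix n n F) ≠ 0) :
    ∃ l ∈ S.Up e (-k), ∃ z ∈ S.Zc e, ∃ u ∈ S.Up e k, g = l * z * u := by
  classical
  obtain ⟨v, hv, hb⟩ := exists_elim h.dec hg
  let v' : S.mon F := ⟨v, mem_mon_of_elim h g.2 hv hb⟩
  let z : S.mon F := ⟨_, diag_mem h.neg (g * v').2 hb⟩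
  have hz : z ∈ S.Zc e := (comm_iff h.dec).2 fun i j hij => by
    rw [diag_blk h.dec, if_neg hij]
  refine ⟨g * v' * z⁻¹, mem_Up.2 ?_, z, hz, v'⁻¹,
    mem_Up.2 (inv_sub_one_mem h.dec hv (coe_inv_mul v')), by group⟩
  have e1 : ((g * v' * z⁻¹ : S.mon F) : Matrix n n F) - 1 =
      ((g : Matrix n n F) * v - z) * ((z⁻¹ : S.mon F) : Matrix n n F) := by
    rw [sub_mul, coe_mul_inv]
    rfl
  rw [e1]
  refine mul_mem_fil h.dec (a := 1) (mem_fil_one.2 fun i j hij => ?_)
    (mem_fil_of_comm h.dec (inv_mem hz)) (by simp)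
  rw [mul_sub, sub_mul, diag_blk h.dec]
  split_ifs with h1
  · exact sub_self _
  · rw [hb i j (by simpa using lt_of_le_of_ne hij fun h2 => h1 (h.neg.inj h2)), sub_zero]

theorem Gr.dl_ldu (h : S.Gr e k) {l z u : S.mon F} (hl : l ∈ S.Up e (-k)) (hz : z ∈ S.Zc e)
    (hu : u ∈ S.Up e k) (a : ℤ) :
    dl (upE e k a) ((l * z * u : S.mon F) : Matrix n n F) =
      ∏ i with a ≤ k i, dl (e i) (z : Matrix n n F) := by
  have hE := upE_idem (k := k) h.dec a
  have h1 := upE_raise h.dec a (mem_fil_of_sub_one h.dec (mem_Up.1 hu))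
  have h2 := upE_lower h.dec a (mem_fil_of_sub_one h.dec (mem_Up.1 hl))
  rw [Submonoid.coe_mul, Submonoid.coe_mul, dl_mul' hE, dl_mul hE (comm_upE hz a),
    dl_eq_one h.dec hE (upE_mem_fil h.dec a _) (mem_Up.1 hl),
    dl_eq_one h.dec hE (upE_mem_fil h.dec a _) (mem_Up.1 hu), one_mul, mul_one, upE,
    dl_sum h.dec hz]
  rw [h1, mul_assoc _ (upE e k a), ← mul_assoc (upE e k a) (u : Matrix n n F), h1]
  simp only [mul_assoc]

theorem Gr.conj_mem_Up (h : S.Gr e k) {z u : S.mon F} (hz : z ∈ S.Zc e) (hu : u ∈ S.Up e k) :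
    z * u * z⁻¹ ∈ S.Up e k := by
  have e1 : ((z * u * z⁻¹ : S.mon F) : Matrix n n F) - 1 =
      (z : Matrix n n F) * ((u : Matrix n n F) - 1) * ((z⁻¹ : S.mon F) : Matrix n n F) := by
    rw [mul_sub, mul_one, sub_mul, coe_mul_inv]
    rfl
  rw [mem_Up, e1]
  exact mul_mem_fil h.dec (mul_mem_fil h.dec (mem_fil_of_comm h.dec hz) (mem_Up.1 hu) (c := 1)
    (by simp)) (mem_fil_of_comm h.dec (inv_mem hz)) (by simp)

theorem Gr.conj_mem_Pl (h : S.Gr e k) {z x : S.mon F} (hz : z ∈ S.Zc e) (hx : x ∈ S.Pl e k) :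
    z * x * z⁻¹ ∈ S.Pl e k := by
  have h1 : S.Pl e k ≤ (S.Pl e k).comap (MulAut.conj z).toMonoidHom :=
    (Subgroup.closure_le _).2 fun u hu => Subgroup.subset_closure
      (hu.imp (h.conj_mem_Up hz) (h.neg.conj_mem_Up hz))
  exact h1 hx

theorem Gr.Zc_le_normalizer (h : S.Gr e k) :
    S.Zc e ≤ Subgroup.normalizer (S.Pl e k : Set (S.mon F)) := by
  refine fun z hz => Subgroup.mem_normalizer_iff.2 fun x => ⟨h.conj_mem_Pl hz, fun hx => ?_⟩
  have h1 := h.conj_mem_Pl (inv_mem hz) hx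
  rwa [show z⁻¹ * (z * x * z⁻¹) * z⁻¹⁻¹ = x by group] at h1

theorem Gr.finiteIndex (h : S.Gr e k) : (S.Pl e k ⊔ S.Zc e).FiniteIndex := by
  have h1 : ∀ g : Matrix n n F, MvPolynomial.eval (fun ij : n × n => g ij.1 ij.2)
      (∏ i, ((upE e k (k i)).map MvPolynomial.C * mvPolynomialX n n F *
        (upE e k (k i)).map MvPolynomial.C + (1 - (upE e k (k i)).map MvPolynomial.C)).det) =
      ∏ i, dl (upE e k (k i)) g := by
    intro g
    rw [map_prod]
    refine Finset.prod_congr rfl fun i _ => ?_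
    have e1 : (MvPolynomial.eval fun ij : n × n => g ij.1 ij.2).mapMatrix
        ((upE e k (k i)).map MvPolynomial.C) = upE e k (k i) := by
      ext a b
      simp
    have e2 : (MvPolynomial.eval fun ij : n × n => g ij.1 ij.2).mapMatrix
        (mvPolynomialX n n F) = g := by
      ext a b
      simp
    rw [RingHom.map_det, map_add, map_sub, map_mul, map_mul, map_one, e1, e2, dl]
  refine finiteIndex_of_poly _ _ (by
    rw [h1]
    exact Finset.prod_ne_zero_iff.2 fun i _ => by
      rw [dl_one (upE_idem h.dec _)]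
      exact one_ne_zero) fun g hg => ?_
  rw [h1] at hg
  obtain ⟨l, hl, z, hz, u, hu, rfl⟩ := h.exists_ldu g fun i =>
    Finset.prod_ne_zero_iff.1 hg i (Finset.mem_univ i)
  exact mul_mem (mul_mem (Subgroup.mem_sup_left (Subgroup.subset_closure (Or.inr hl)))
    (Subgroup.mem_sup_right hz)) (Subgroup.mem_sup_left (Subgroup.subset_closure (Or.inl hu)))

/-- Integral weights give elements of the group. -/
theorem pw_mem (he : IsDec e) {c : I → ℤ} (hc : ∑ i, (c i : F) • e i ∈ S.lie F) {w : F}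
    (hw : w ≠ 0) : ∑ i, w ^ c i • e i ∈ S.mon F := by
  refine he.sum_mem_mon _ fun c' h => ?_
  have h1 := he.sum_eq_zero hc h
  have h2 : ∑ r, c (c' r) = 0 := by exact_mod_cast h1
  rw [zpow_sum' hw, h2, zpow_zero]

open Classical in
/-- The homogeneous components of an element of the Lie algebra. -/
theorem comp_mem (he : IsDec e) {c : I → ℤ} (hc : ∑ i, (c i : F) • e i ∈ S.lie F)
    {X : Matrix n n F} (hX : X ∈ S.lie F) (d : ℤ) :
    ∑ i, ∑ j with c i - c j = d, e i * X * e j ∈ S.lie F := by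
  simpa only [CL.cmp, ite_smul, one_smul, zero_smul, Finset.sum_filter] using
    cmp_mem he hc hX fun a => if a = d then 1 else 0

/-- The exponential of an element which raises the degree. -/
theorem Gr.exp_mem_Up (h : S.Gr e k) {X : Matrix n n F} (hX : X ∈ S.lie F)
    (hr : ∀ i j, k i ≤ k j → e i * X * e j = 0) :
    IsNilpotent X ∧ ∃ u ∈ S.Up e k, (u : Matrix n n F) = IsNilpotent.exp X := by
  have h1 := mem_fil_one.2 hr
  have h2 := isNilpotent_of_fil h.dec h1
  refine ⟨h2, ⟨_, exp_mem hX h2⟩, mem_Up.2 ?_, rfl⟩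
  obtain ⟨m, hm⟩ := h2
  have h3 : X ^ (m + 1) = 0 := by rw [pow_succ, hm, zero_mul]
  change IsNilpotent.exp X - 1 ∈ _
  rw [IsNilpotent.exp_eq_sum h3, Finset.sum_range_succ']
  simp only [Nat.factorial_zero, Nat.cast_one, inv_one, pow_zero, one_smul, add_sub_cancel_right]
  exact Submodule.sum_mem _ fun i _ => Submodule.smul_of_tower_mem _ _
    (fil_mono (by omega) (pow_mem_fil h.dec h1 (i + 1)))

/-- An element of the Lie algebra is the sum of a raising, a neutral and a lowering element. -/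
theorem Gr.exists_split (h : S.Gr e k) {X : Matrix n n F} (hX : X ∈ S.lie F) :
    ∃ A ∈ S.lie F, ∃ Z ∈ S.lie F, ∃ B ∈ S.lie F, X = A + Z + B ∧
      (∀ i j, k i ≤ k j → e i * A * e j = 0) ∧ (∀ i, Commute Z (e i)) ∧
      ∀ i j, k j ≤ k i → e i * B * e j = 0 := by
  refine ⟨_, cmp_mem h.dec h.mem hX fun a => if 0 < a then 1 else 0,
    _, cmp_mem h.dec h.mem hX fun a => if a = 0 then 1 else 0,
    _, cmp_mem h.dec h.mem hX fun a => if a < 0 then 1 else 0, ext h.dec fun i j => ?_,
    fun i j hij => ?_, (comm_iff h.dec).2 fun i j hij => ?_, fun i j hij => ?_⟩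
  · rw [mul_add, mul_add, add_mul, add_mul, cmp_blk h.dec, cmp_blk h.dec, cmp_blk h.dec,
      ← add_smul, ← add_smul]
    rcases lt_trichotomy (k i - k j) 0 with h1 | h1 | h1
    · rw [if_neg h1.not_gt, if_neg h1.ne, if_pos h1, zero_add, zero_add, one_smul]
    · rw [if_neg h1.not_gt, if_pos h1, if_neg h1.not_lt, zero_add, add_zero, one_smul]
    · rw [if_pos h1, if_neg h1.ne', if_neg h1.not_gt, add_zero, add_zero, one_smul]
  · rw [cmp_blk h.dec, if_neg (by omega), zero_smul]
  · rw [cmp_blk h.dec, if_neg fun h1 => hij (h.inj (sub_eq_zero.1 h1)), zero_smul]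
  · rw [cmp_blk h.dec, if_neg (by omega), zero_smul]

end alg

end Sys

end Vale.Agent.P011Z
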