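import Vale.Agent.P011Z.Grad

/-!
The filtration of the matrix algebra which is defined by a grading.
-/

open Matrix

namespace Vale.Agent.P011Z

namespace CL

variable {n : Type} [Fintype n] [DecidableEq n] {F : Type} [Field F] {I : Type} [Fintype I]
  {e : I → Matrix n n F} {k : I → ℤ}

theorem mul_sum (he : IsDec e) (w : I → F) (j : I) : e j * (∑ i, w i • e i) = w j • e j := by
  rw [Finset.mul_sum, Finset.sum_eq_single j]
  · rw [mul_smul_comm, he.idem]
  · intro i _ hi
    rw [mul_smul_comm, he.orth _ _ hi.symm, smul_zero]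
  · simp

theorem expand (he : IsDec e) (X : Matrix n n F) : ∑ i, ∑ j, e i * X * e j = X := by
  simp only [← Finset.mul_sum, he.sum, mul_one]
  rw [← Finset.sum_mul, he.sum, one_mul]

theorem ext (he : IsDec e) {X Y : Matrix n n F} (h : ∀ i j, e i * X * e j = e i * Y * e j) :
    X = Y := by
  rw [← expand he X, ← expand he Y]
  simp only [h]

variable (e) in
/-- The blocks are multiplied by the given scalars. -/
def cmp (φ : I → I → F) (X : Matrix n n F) : Matrix n n F := ∑ i, ∑ j, φ i j • (e i * X * e j)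

theorem cmp_blk (he : IsDec e) (φ : I → I → F) (X : Matrix n n F) (i j : I) :
    e i * cmp e φ X * e j = φ i j • (e i * X * e j) := by
  rw [cmp, Finset.mul_sum, Finset.sum_mul, Finset.sum_eq_single i, Finset.mul_sum, Finset.sum_mul,
    Finset.sum_eq_single j]
  · rw [mul_smul_comm, smul_mul_assoc, ← mul_assoc, ← mul_assoc, he.idem, mul_assoc _ (e j),
      he.idem]
  · intro l _ hl
    rw [mul_smul_comm, smul_mul_assoc, mul_assoc, mul_assoc _ (e l), he.orth _ _ hl, mul_zero,
      mul_zero, smul_zero]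
  · simp
  · intro l _ hl
    rw [Finset.mul_sum, Finset.sum_eq_zero, zero_mul]
    intro m _
    rw [mul_smul_comm, ← mul_assoc, ← mul_assoc, he.orth _ _ hl.symm, zero_mul, zero_mul, smul_zero]
  · simp

theorem comm_e (he : IsDec e) (i j : I) : Commute (e i) (e j) := by
  by_cases h : i = j
  · rw [h]
  · rw [Commute, SemiconjBy, he.orth _ _ h, he.orth _ _ (Ne.symm h)]

theorem comm_iff (he : IsDec e) {Z : Matrix n n F} :
    (∀ i, Commute Z (e i)) ↔ ∀ i j, i ≠ j → e i * Z * e j = 0 := by
  refine ⟨fun h i j hij => ?_, fun h l => ext he fun i j => ?_⟩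
  · rw [mul_assoc, (h j).eq, ← mul_assoc, he.orth _ _ hij, zero_mul]
  · rw [mul_assoc, mul_assoc, (comm_e he l j).eq, ← mul_assoc (e i) (e l), (comm_e he i l).eq,
      ← mul_assoc, ← mul_assoc, mul_assoc (e l), mul_assoc (e l)]
    by_cases hij : i = j
    · subst hij
      by_cases hl : l = i
      · subst hl
        rw [mul_assoc _ (e l), he.idem, ← mul_assoc, ← mul_assoc, he.idem]
      · rw [mul_assoc _ (e i), he.orth _ _ (Ne.symm hl), mul_zero, ← mul_assoc, ← mul_assoc,
          he.orth _ _ hl, zero_mul, zero_mul]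
    · rw [h i j hij, zero_mul, mul_zero]

variable (e k) in
/-- The matrices which raise the degree by at least `d`. -/
def fil (d : ℤ) : Submodule F (Matrix n n F) where
  carrier := {X | ∀ i j, k i < k j + d → e i * X * e j = 0}
  zero_mem' := fun i j _ => by simp
  add_mem' := fun {X Y} hX hY i j h => by rw [mul_add, add_mul, hX i j h, hY i j h, add_zero]
  smul_mem' := fun c X hX i j h => by rw [mul_smul_comm, smul_mul_assoc, hX i j h, smul_zero]

omit [Fintype I] in
theorem mem_fil {d : ℤ} {X : Matrix n n F} :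
    X ∈ fil e k d ↔ ∀ i j, k i < k j + d → e i * X * e j = 0 := Iff.rfl

omit [Fintype I] in
theorem mem_fil_one {X : Matrix n n F} :
    X ∈ fil e k 1 ↔ ∀ i j, k i ≤ k j → e i * X * e j = 0 := by
  simp only [mem_fil, Int.lt_add_one_iff]

omit [Fintype I] in
theorem fil_mono {a b : ℤ} (h : a ≤ b) {X : Matrix n n F} (hX : X ∈ fil e k b) : X ∈ fil e k a :=
  fun i j hij => hX i j (by omega)

theorem mul_mem_fil (he : IsDec e) {a b c : ℤ} {X Y : Matrix n n F} (hX : X ∈ fil e k a)
    (hY : Y ∈ fil e k b) (h : c ≤ a + b) : X * Y ∈ fil e k c := by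
  intro i j hij
  have e1 : e i * (X * Y) * e j = ∑ l, e i * X * e l * (e l * Y * e j) := by
    have e2 : ∀ l, e i * X * e l * (e l * Y * e j) = e i * X * e l * (Y * e j) := fun l => by
      rw [mul_assoc (e l), ← mul_assoc _ (e l), mul_assoc _ (e l) (e l), he.idem]
    simp only [e2]
    rw [← Finset.sum_mul, ← Finset.mul_sum, he.sum, mul_one]
    simp only [mul_assoc]
  rw [e1]
  refine Finset.sum_eq_zero fun l _ => ?_
  by_cases hl : k i < k l + a
  · rw [hX i l hl, zero_mul]
  · rw [hY l j (by omega), mul_zero]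

theorem mem_fil_of_comm (he : IsDec e) {Z : Matrix n n F} (h : ∀ i, Commute Z (e i)) :
    Z ∈ fil e k 0 := fun i j hij => (comm_iff he).1 h i j fun e1 => by simp [e1] at hij

theorem one_mem_fil (he : IsDec e) : (1 : Matrix n n F) ∈ fil e k 0 :=
  mem_fil_of_comm he fun _ => Commute.one_left _

theorem pow_mem_fil (he : IsDec e) {X : Matrix n n F} (hX : X ∈ fil e k 1) (m : ℕ) :
    X ^ m ∈ fil e k m := by
  induction m with
  | zero =>
    rw [pow_zero]
    exact one_mem_fil he
  | succ m ih =>
    rw [pow_succ]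
    exact mul_mem_fil he ih hX (by simp)

theorem isNilpotent_of_fil (he : IsDec e) {X : Matrix n n F} (hX : X ∈ fil e k 1) :
    IsNilpotent X := by
  obtain ⟨m, hm⟩ := Finite.exists_le fun p : I × I => (k p.1 - k p.2).toNat
  refine ⟨m + 1, ext he fun i j => ?_⟩
  rw [pow_mem_fil he hX (m + 1) i j (by have := hm (i, j); dsimp only at this; omega), mul_zero,
    zero_mul]

theorem mem_fil_of_sub_one (he : IsDec e) {u : Matrix n n F} (hu : u - 1 ∈ fil e k 1) :
    u ∈ fil e k 0 := by
  simpa using add_mem (fil_mono zero_le_one hu) (one_mem_fil he)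

theorem inv_sub_one_mem (he : IsDec e) {u v : Matrix n n F} (hu : u - 1 ∈ fil e k 1)
    (h : v * u = 1) : v - 1 ∈ fil e k 1 := by
  have hN : 1 - u ∈ fil e k 1 := by simpa using neg_mem hu
  obtain ⟨m, hm⟩ := isNilpotent_of_fil he hN
  have h1 := mul_neg_geom_sum (1 - u) m
  rw [hm, sub_zero, sub_sub_cancel] at h1
  have h2 : v = ∑ i ∈ Finset.range m, (1 - u) ^ i := by
    have h5 := congrArg (v * ·) h1
    simp only [← mul_assoc, h, one_mul, mul_one] at h5
    exact h5.symm
  have h3 : v ∈ fil e k 0 := by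
    rw [h2]
    exact Submodule.sum_mem _ fun i _ => fil_mono (by positivity) (pow_mem_fil he hN i)
  have h4 : v - 1 = v * (1 - u) := by rw [mul_sub, mul_one, h]
  rw [h4]
  exact mul_mem_fil he h3 hN (by simp)

theorem blk_of_sub_one (he : IsDec e) {u : Matrix n n F} (hu : u - 1 ∈ fil e k 1) (i : I) :
    e i * u * e i = e i := by
  have h := mem_fil_one.1 hu i i le_rfl
  rwa [mul_sub, sub_mul, mul_one, he.idem, sub_eq_zero] at h

theorem sum_idem (he : IsDec e) (s : Finset I) : (∑ i ∈ s, e i) * ∑ i ∈ s, e i = ∑ i ∈ s, e i := by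
  rw [Finset.sum_mul]
  refine Finset.sum_congr rfl fun i hi => ?_
  rw [Finset.mul_sum, Finset.sum_eq_single i (fun j _ hj => he.orth _ _ hj.symm)
    (fun h => (h hi).elim), he.idem]

theorem upE_idem (he : IsDec e) (a : ℤ) : upE e k a * upE e k a = upE e k a := sum_idem he _

theorem mul_upE (he : IsDec e) (a : ℤ) (i : I) :
    e i * upE e k a = if a ≤ k i then e i else 0 := by
  rw [upE, Finset.mul_sum]
  split_ifs with h
  · rw [Finset.sum_eq_single i (fun j _ hj => he.orth _ _ hj.symm) (by simp [h]), he.idem]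
  · refine Finset.sum_eq_zero fun j hj => he.orth _ _ ?_
    rintro rfl
    exact h (Finset.mem_filter.1 hj).2

omit [DecidableEq n] in
theorem comm_upE {Z : Matrix n n F} (h : ∀ i, Commute Z (e i)) (a : ℤ) : Commute Z (upE e k a) :=
  Commute.sum_right _ _ _ fun i _ => h i

theorem upE_mul (he : IsDec e) (a : ℤ) (i : I) :
    upE e k a * e i = if a ≤ k i then e i else 0 := by
  rw [← (comm_upE (comm_e he i) a).eq, mul_upE he]

theorem upE_mem_fil (he : IsDec e) (a : ℤ) (k' : I → ℤ) : upE e k a ∈ fil e k' 0 :=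
  mem_fil_of_comm he fun i => (comm_upE (comm_e he i) a).symm

theorem upE_raise (he : IsDec e) (a : ℤ) {u : Matrix n n F} (hu : u ∈ fil e k 0) :
    upE e k a * u * upE e k a = u * upE e k a := by
  refine ext he fun i j => ?_
  rw [mul_assoc, mul_assoc, mul_assoc (e i), mul_assoc u, upE_mul he, ← mul_assoc, ← mul_assoc,
    mul_upE he]
  split_ifs with h1 h2
  · rw [mul_assoc]
  · simp
  · rw [zero_mul, zero_mul, ← mul_assoc, hu i j (by omega)]
  · simp

theorem upE_lower (he : IsDec e) (a : ℤ) {l : Matrix n n F} (hl : l ∈ fil e (-k) 0) :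
    upE e k a * l * upE e k a = upE e k a * l := by
  refine ext he fun i j => ?_
  rw [mul_assoc, mul_assoc, upE_mul he, ← mul_assoc, ← mul_assoc, mul_upE he]
  split_ifs with h1 h2
  · rfl
  · rw [mul_zero, hl i j (by simp only [Pi.neg_apply]; omega)]
  · simp
  · simp

theorem dl_mul' {E y z : Matrix n n F} (hE : E * E = E)
    (h : E * y * E * (E * z * E) = E * (y * z) * E) : dl E (y * z) = dl E y * dl E z := by
  have h1 : E * (1 - E) = 0 := by rw [mul_sub, mul_one, hE, sub_self]
  have h2 : (1 - E) * E = 0 := by rw [sub_mul, one_mul, hE, sub_self]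
  have h3 : (1 - E) * (1 - E) = 1 - E := by rw [mul_sub, mul_one, h2, sub_zero]
  have h6 : E * y * E * (1 - E) = 0 := by rw [mul_assoc, h1, mul_zero]
  have h7 : (1 - E) * (E * z * E) = 0 := by rw [← mul_assoc, ← mul_assoc, h2, zero_mul, zero_mul]
  rw [dl, dl, dl, ← det_mul, add_mul, mul_add, mul_add, h, h6, h7, h3, add_zero, zero_add]

theorem det_one_add_nil {N : Matrix n n F} (h : IsNilpotent N) : (1 + N).det = 1 := by
  have h1 := (isNilpotent_charpoly_sub_pow_of_isNilpotent h.neg).eq_zero
  have h2 := eval_charpoly (-N) 1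
  rw [sub_eq_zero.1 h1, map_one, sub_neg_eq_add] at h2
  simpa using h2.symm

theorem dl_eq_one (he : IsDec e) {E u : Matrix n n F} (hE : E * E = E) (hE' : E ∈ fil e k 0)
    (hu : u - 1 ∈ fil e k 1) : dl E u = 1 := by
  have e1 : E * u * E + (1 - E) = 1 + E * (u - 1) * E := by
    rw [mul_sub, sub_mul, mul_one, hE]
    abel
  rw [dl, e1]
  exact det_one_add_nil (isNilpotent_of_fil he
    (mul_mem_fil he (mul_mem_fil he hE' hu (c := 1) (by simp)) hE' (by simp)))

theorem dl_add {E E' z : Matrix n n F} (hE : E * E = E) (hE' : E' * E' = E') (h1 : E * E' = 0)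
    (h2 : E' * E = 0) (hz : Commute z E) (hz' : Commute z E') :
    dl (E + E') z = dl E z * dl E' z := by
  have h3 : ∀ P : Matrix n n F, P * P = P → Commute z P → P * z * P = z * P := fun P hP hc => by
    rw [← hc.eq, mul_assoc, hP]
  have h4 : E * (z * E') = 0 := by rw [hz'.eq, ← mul_assoc, h1, zero_mul]
  rw [dl, dl, dl, ← det_mul, h3 E hE hz, h3 E' hE' hz', h3 _ (by
    rw [add_mul, mul_add, mul_add, hE, hE', h1, h2, add_zero, zero_add]) (hz.add_right hz')]
  congr 1
  simp only [mul_add, add_mul, mul_sub, sub_mul, mul_one, one_mul, mul_assoc, h1, h4, mul_zero]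
  abel

theorem dl_zero (z : Matrix n n F) : dl 0 z = 1 := by simp [dl]

theorem dl_sum (he : IsDec e) {z : Matrix n n F} (hz : ∀ i, Commute z (e i)) (s : Finset I) :
    dl (∑ i ∈ s, e i) z = ∏ i ∈ s, dl (e i) z := by
  classical
  induction s using Finset.induction_on with
  | empty => simp [dl_zero]
  | insert a s ha ih =>
    have h : ∀ i ∈ s, a ≠ i := fun i hi h => ha (h ▸ hi)
    rw [Finset.sum_insert ha, Finset.prod_insert ha, dl_add (he.idem a) (sum_idem he s) ?_ ?_ (hz a)
      (Commute.sum_right _ _ _ fun i _ => hz i), ih]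
    · rw [Finset.mul_sum]
      exact Finset.sum_eq_zero fun i hi => he.orth _ _ (h i hi)
    · rw [Finset.sum_mul]
      exact Finset.sum_eq_zero fun i hi => he.orth _ _ (h i hi).symm

/-- Inversion on the image of an idempotent. -/
theorem exists_rel_inv {E g : Matrix n n F} (hE : E * E = E) (h : dl E g ≠ 0) :
    ∃ R : Matrix n n F, E * R = R ∧ E * g * R = E := by
  have h1 : E * (1 - E) = 0 := by rw [mul_sub, mul_one, hE, sub_self]
  have h2 : (1 - E) * E = 0 := by rw [sub_mul, one_mul, hE, sub_self]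
  have h3 := mul_nonsing_inv _ (Ne.isUnit h)
  refine ⟨E * (E * g * E + (1 - E))⁻¹, by rw [← mul_assoc, hE], ?_⟩
  have h4 : E * (E * g * E + (1 - E)) = E * g * E := by
    rw [mul_add, h1, add_zero, ← mul_assoc, ← mul_assoc, hE]
  have h5 := congrArg (E * ·) h3
  simp only [← mul_assoc, h4, mul_one] at h5
  rw [← mul_assoc]
  exact h5

/-- Elimination above the diagonal. -/
theorem exists_elim (he : IsDec e) {g : Matrix n n F} (hg : ∀ i, dl (upE e k (k i)) g ≠ 0) :
    ∃ v : Matrix n n F, v - 1 ∈ fil e k 1 ∧ g * v ∈ fil e (-k) 0 := by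
  classical
  have h1 : ∀ a, dl (upE e k a) g ≠ 0 := by
    intro a
    rcases (Finset.univ.filter fun i => a ≤ k i).eq_empty_or_nonempty with h | h
    · rw [upE, h, Finset.sum_empty, dl_zero]
      exact one_ne_zero
    · obtain ⟨i, hi, hm⟩ := Finset.exists_min_image _ k h
      have e1 : upE e k a = upE e k (k i) := by
        refine Finset.sum_congr (Finset.filter_congr fun j _ => ⟨fun hj => hm j (by simpa using hj),
          fun hj => (Finset.mem_filter.1 hi).2.trans hj⟩) fun _ _ => rfl
      rw [e1]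
      exact hg i
  choose R hR hR' using fun a => exists_rel_inv (upE_idem he a) (h1 a)
  have h2 : ∀ j, (∑ l, R (k l + 1) * g * e l) * e j = R (k j + 1) * g * e j := by
    intro j
    rw [Finset.sum_mul, Finset.sum_eq_single j (fun l _ hl => by
      rw [mul_assoc, he.orth _ _ hl, mul_zero]) (by simp), mul_assoc, he.idem]
  refine ⟨1 - ∑ l, R (k l + 1) * g * e l, mem_fil_one.2 fun i j hij => ?_, ?_⟩
  · rw [sub_sub_cancel_left, mul_neg, neg_mul, mul_assoc, h2, ← hR, ← mul_assoc, ← mul_assoc,
      ← mul_assoc, mul_upE he, if_neg (by omega)]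
    simp
  · intro i j hij
    have h3 : e i * upE e k (k j + 1) = e i := by
      rw [mul_upE he, if_pos (by simp only [Pi.neg_apply] at hij; omega)]
    have h4 := congrArg (e i * ·) (hR' (k j + 1))
    simp only [← mul_assoc, h3] at h4
    rw [mul_assoc, mul_assoc, sub_mul, h2, one_mul, mul_sub, mul_sub, sub_eq_zero]
    simp only [← mul_assoc, h4]

end CL

end Vale.Agent.P011Z
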